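import Vale.Agent.P227.Sym.Lift

/-!
Transfer to Euclidean space, the unit sphere and arbitrary linear coordinates.
-/

namespace Vale.Agent.P227.Sym

open MeasureTheory Set
open scoped Pointwise ENNReal RealInnerProductSpace

variable {n : ℕ}

theorem euclidean {K L : Set (EuclideanSpace ℝ (Fin n))} {a : ℝ} (hK : IsCompact K)
    (hKc : Convex ℝ K) (hKs : ∀ x ∈ K, -x ∈ K) (hL : IsCompact L) (hLc : Convex ℝ L)
    (hLs : ∀ x ∈ L, -x ∈ L) (ha : a ∈ Icc (0 : ℝ) 1)
    (A : EuclideanSpace ℝ (Fin n) ≃ₗ[ℝ] (Fin n → ℝ))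
    (hr : ∀ i : Fin n, (i : ℕ) + 2 < n →
      (∀ x ∈ K, A.symm (Function.update (A x) i (-(A x i))) ∈ K) ∧
      (∀ x ∈ L, A.symm (Function.update (A x) i (-(A x i))) ∈ L)) :
    volume.real K ^ (1 - a) * volume.real L ^ a ≤ volume.real
      {x : EuclideanSpace ℝ (Fin n) | ∀ u ∈ Metric.sphere (0 : EuclideanSpace ℝ (Fin n)) 1,
        ⟪x, u⟫ ≤ sSup ((fun y => ⟪y, u⟫) '' K) ^ (1 - a) * sSup ((fun y => ⟪y, u⟫) '' L) ^ a} := by
  obtain ⟨ha0, ha1⟩ := ha
  set W := {x : EuclideanSpace ℝ (Fin n) | ∀ u ∈ Metric.sphere (0 : EuclideanSpace ℝ (Fin n)) 1,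
    ⟪x, u⟫ ≤ sSup ((fun y => ⟪y, u⟫) '' K) ^ (1 - a) * sSup ((fun y => ⟪y, u⟫) '' L) ^ a} with hW
  have hb : 0 ≤ 1 - a := by linarith
  have hnn : ∀ {M : Set (EuclideanSpace ℝ (Fin n))}, IsCompact M → (∀ x ∈ M, -x ∈ M) →
      ∀ u, 0 ≤ sSup ((fun y => ⟪y, u⟫) '' M) := by
    intro M hM hMs u
    rcases M.eq_empty_or_nonempty with h | ⟨x, hx⟩
    · simp [h]
    have hbd := (hM.image (f := fun y => ⟪y, u⟫) (by fun_prop)).bddAbove
    have h1 := le_csSup hbd ⟨x, hx, rfl⟩
    have h2 := le_csSup hbd ⟨-x, hMs x hx, rfl⟩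
    simp only [inner_neg_left] at h1 h2
    linarith
  have hWc : volume W ≠ ∞ := by
    obtain ⟨R, hR⟩ := hK.isBounded.exists_norm_le
    obtain ⟨S, hS⟩ := hL.isBounded.exists_norm_le
    refine (lt_of_le_of_lt (measure_mono (t := Metric.closedBall 0
      (max 0 ((max R 0) ^ (1 - a) * (max S 0) ^ a))) fun x hx => ?_)
      (isCompact_closedBall _ _).measure_lt_top).ne
    rw [Metric.mem_closedBall, dist_zero_right]
    rcases eq_or_ne x 0 with rfl | hx0
    · simp
    have hn : 0 < ‖x‖ := norm_pos_iff.2 hx0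
    have h := hx (‖x‖⁻¹ • x) (by simp [norm_smul, hn.ne'])
    rw [real_inner_smul_right, real_inner_self_eq_norm_mul_norm, ← mul_assoc,
      inv_mul_cancel₀ hn.ne', one_mul] at h
    have hsup : ∀ {M : Set (EuclideanSpace ℝ (Fin n))} {r : ℝ}, (∀ y ∈ M, ‖y‖ ≤ r) →
        sSup ((fun y => ⟪y, ‖x‖⁻¹ • x⟫) '' M) ≤ max r 0 := by
      intro M r hr
      refine Real.sSup_le ?_ (le_max_right _ _)
      rintro _ ⟨y, hy, rfl⟩
      refine (real_inner_le_norm _ _).trans (le_trans ?_ (le_max_left r 0))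
      rw [norm_smul, norm_inv, norm_norm, inv_mul_cancel₀ hn.ne', mul_one]
      exact hr y hy
    refine h.trans (le_trans ?_ (le_max_right _ _))
    exact mul_le_mul (Real.rpow_le_rpow (hnn hK hKs _) (hsup hR) hb)
      (Real.rpow_le_rpow (hnn hL hLs _) (hsup hS) ha0) (Real.rpow_nonneg (hnn hL hLs _) _)
      (by positivity)
  rcases eq_or_lt_of_le ha0 with rfl | ha0'
  · rw [sub_zero, Real.rpow_one, Real.rpow_zero, mul_one]
    refine measureReal_mono (fun x hx u _ => ?_) hWc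
    rw [sub_zero, Real.rpow_one, Real.rpow_zero, mul_one]
    exact le_csSup (hK.image (by fun_prop)).bddAbove ⟨x, hx, rfl⟩
  rcases eq_or_lt_of_le ha1 with rfl | ha1'
  · rw [sub_self, Real.rpow_one, Real.rpow_zero, one_mul]
    refine measureReal_mono (fun x hx u _ => ?_) hWc
    rw [sub_self, Real.rpow_one, Real.rpow_zero, one_mul]
    exact le_csSup (hL.image (by fun_prop)).bddAbove ⟨x, hx, rfl⟩
  have hA : Continuous A := A.toLinearMap.continuous_of_finiteDimensional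
  have hgood : ∀ {M : Set (EuclideanSpace ℝ (Fin n))}, IsCompact M → Convex ℝ M →
      (∀ x ∈ M, -x ∈ M) → Good (A '' M) := fun {M} h1 h2 h3 =>
    ⟨h1.image hA, h2.linear_image A.toLinearMap, by
      rintro _ ⟨x, hx, rfl⟩
      exact ⟨-x, h3 x hx, map_neg A x⟩⟩
  have hrefl : ∀ {M : Set (EuclideanSpace ℝ (Fin n))} {i : Fin n},
      (∀ x ∈ M, A.symm (Function.update (A x) i (-(A x i))) ∈ M) → Refl i (A '' M) := by
    intro M i h
    rintro _ ⟨x, hx, rfl⟩
    exact ⟨_, h x hx, A.apply_symm_apply _⟩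
  have key := main ha0' ha1' n _ _ (hgood hK hKc hKs) (hgood hL hLc hLs)
    fun i hi => ⟨hrefl (hr i hi).1, hrefl (hr i hi).2⟩
  have hsub : lw a (A '' K) (A '' L) ⊆ A '' W := by
    intro y hy
    refine ⟨A.symm y, fun u _ => ?_, A.apply_symm_apply y⟩
    set w : Fin n → ℝ := fun i => ⟪A.symm (Pi.single i 1), u⟫ with hw
    have e : ∀ z, A z ⬝ᵥ w = ⟪z, u⟫ := by
      intro z
      conv_rhs => rw [← A.symm_apply_apply z, pi_eq_sum_univ' (A z)]
      rw [map_sum, sum_inner]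
      simp only [hw, dotProduct, map_smul, real_inner_smul_left]
    have es : ∀ M : Set (EuclideanSpace ℝ (Fin n)),
        sh (A '' M) w = sSup ((fun z => ⟪z, u⟫) '' M) := fun M => by
      rw [sh, image_image]
      simp only [e]
    have h := hy w
    rwa [es, es, ← A.apply_symm_apply y, e] at h
  set B : (Fin n → ℝ) →ₗ[ℝ] Fin n → ℝ :=
    A.toLinearMap.comp (WithLp.linearEquiv 2 ℝ (Fin n → ℝ)).symm.toLinearMap with hB
  have hdet : 0 < |LinearMap.det B| := by
    refine abs_pos.2 fun h => ?_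
    have := LinearMap.bot_lt_ker_of_det_eq_zero h
    rw [LinearMap.ker_eq_bot.2 (show Function.Injective B from A.injective.comp
      (LinearEquiv.injective _))] at this
    exact lt_irrefl _ this
  have hv : ∀ X : Set (EuclideanSpace ℝ (Fin n)),
      volume (A '' X) = ENNReal.ofReal |LinearMap.det B| * volume X := by
    intro X
    have e : A '' X = B '' ((fun x : EuclideanSpace ℝ (Fin n) => WithLp.ofLp x) '' X) := by
      rw [image_image]; rfl
    rw [e, Measure.addHaar_image_linearMap]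
    congr 1
    have e2 : (fun x : EuclideanSpace ℝ (Fin n) => WithLp.ofLp x) '' X
        = (MeasurableEquiv.toLp 2 (Fin n → ℝ)).symm '' X := rfl
    rw [e2, MeasurableEquiv.image_symm]
    exact (PiLp.volume_preserving_toLp (Fin n)).measure_preimage_equiv X
  have h := ENNReal.toReal_mono (by rw [hv]; exact ENNReal.mul_ne_top ENNReal.ofReal_ne_top hWc)
    (key.trans (measure_mono hsub))
  simp only [hv, ENNReal.toReal_mul, ← ENNReal.toReal_rpow,
    ENNReal.toReal_ofReal (abs_nonneg _)] at h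
  rw [Real.mul_rpow (abs_nonneg _) ENNReal.toReal_nonneg,
    Real.mul_rpow (abs_nonneg _) ENNReal.toReal_nonneg, mul_mul_mul_comm, ← Real.rpow_add hdet,
    sub_add_cancel, Real.rpow_one] at h
  exact le_of_mul_le_mul_left h hdet

end Vale.Agent.P227.Sym
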