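import Mathlib

/-!
Support functions in coordinates and elementary inequalities for the planar and reflection
symmetric cases of the logarithmic Brunn-Minkowski inequality.
-/

namespace Vale.Agent.P227.Sym

open MeasureTheory Set
open scoped Pointwise

variable {n : ℕ}

/-- Support function. -/
noncomputable def sh (K : Set (Fin n → ℝ)) (u : Fin n → ℝ) : ℝ := sSup ((fun x => x ⬝ᵥ u) '' K)

/-- Origin symmetric compact convex set. -/
structure Good (K : Set (Fin n → ℝ)) : Prop where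
  cpt : IsCompact K
  conv : Convex ℝ K
  sym : ∀ x ∈ K, -x ∈ K

/-- The logarithmic combination, with all directions (not only unit ones). -/
def lw (a : ℝ) (K L : Set (Fin n → ℝ)) : Set (Fin n → ℝ) :=
  {x | ∀ u, x ⬝ᵥ u ≤ sh K u ^ (1 - a) * sh L u ^ a}

variable {K L : Set (Fin n → ℝ)}

theorem continuous_dot (u : Fin n → ℝ) : Continuous fun x : Fin n → ℝ => x ⬝ᵥ u :=
  continuous_finsetSum _ fun i _ => (continuous_apply i).mul continuous_const

theorem Good.dot_le (hK : Good K) {x : Fin n → ℝ} (hx : x ∈ K) (u : Fin n → ℝ) :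
    x ⬝ᵥ u ≤ sh K u :=
  le_csSup (hK.cpt.image (continuous_dot u)).bddAbove ⟨x, hx, rfl⟩

theorem Good.abs_dot_le (hK : Good K) {x : Fin n → ℝ} (hx : x ∈ K) (u : Fin n → ℝ) :
    |x ⬝ᵥ u| ≤ sh K u := by
  have h := hK.dot_le (hK.sym x hx) u
  rw [neg_dotProduct] at h
  exact abs_le.2 ⟨by linarith, hK.dot_le hx u⟩

theorem Good.exists_eq (hK : Good K) (hne : K.Nonempty) (u : Fin n → ℝ) :
    ∃ x ∈ K, x ⬝ᵥ u = sh K u := by
  obtain ⟨x, hx, h⟩ := (hK.cpt.image (continuous_dot u)).sSup_mem (hne.image _)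
  exact ⟨x, hx, h⟩

theorem Good.sh_nonneg (hK : Good K) (u : Fin n → ℝ) : 0 ≤ sh K u := by
  rcases K.eq_empty_or_nonempty with h | ⟨x, hx⟩
  · simp [sh, h]
  · exact (abs_nonneg _).trans (hK.abs_dot_le hx u)

theorem Good.sh_neg (hK : Good K) (u : Fin n → ℝ) : sh K (-u) = sh K u := by
  unfold sh
  congr 1
  ext y
  constructor <;> rintro ⟨x, hx, rfl⟩ <;> exact ⟨-x, hK.sym x hx, by simp⟩

theorem sh_smul (c : ℝ) (hc : 0 ≤ c) (u : Fin n → ℝ) : sh K (c • u) = c * sh K u := by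
  have e : (fun x => x ⬝ᵥ (c • u)) '' K = c • ((fun x => x ⬝ᵥ u) '' K) := by
    rw [← Set.image_smul, ← Set.image_comp]
    exact image_congr fun x _ => by simp [dotProduct_smul]
  rw [sh, e, Real.sSup_smul_of_nonneg hc, sh, smul_eq_mul]

theorem Good.continuous_sh (hK : Good K) : Continuous (sh K) := by
  have hk : Continuous fun p : (Fin n → ℝ) × (Fin n → ℝ) => p.2 ⬝ᵥ p.1 :=
    continuous_finsetSum _ fun i _ =>
      ((continuous_apply i).comp continuous_snd).mul ((continuous_apply i).comp continuous_fst)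
  exact hK.cpt.continuous_sSup (f := fun u x => x ⬝ᵥ u) hk

theorem Good.zero_mem (hK : Good K) (hne : K.Nonempty) : (0 : Fin n → ℝ) ∈ K := by
  obtain ⟨x, hx⟩ := hne
  have h := hK.conv hx (hK.sym x hx) (by norm_num : (0:ℝ) ≤ 1/2) (by norm_num : (0:ℝ) ≤ 1/2)
    (by norm_num)
  rwa [smul_neg, add_neg_cancel] at h

theorem Good.sh_pos (hK : Good K) (hv : volume K ≠ 0) {u : Fin n → ℝ} (hu : u ≠ 0) :
    0 < sh K u := by
  have hi : (interior K).Nonempty := by
    rw [nonempty_iff_ne_empty]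
    intro h
    apply hv
    have hf : frontier K = K := by rw [frontier, hK.cpt.isClosed.closure_eq, h, sdiff_empty]
    exact hf ▸ hK.conv.addHaar_frontier volume
  obtain ⟨x, hx⟩ := hi
  obtain ⟨r, hr, hb⟩ := Metric.isOpen_iff.1 isOpen_interior x hx
  have hn : 0 < ‖u‖ := norm_pos_iff.2 hu
  have hmem : x + (r / 2 / ‖u‖) • u ∈ K := by
    refine interior_subset (hb ?_)
    rw [Metric.mem_ball, dist_eq_norm, add_sub_cancel_left, norm_smul, Real.norm_eq_abs,
      abs_of_pos (by positivity), div_mul_cancel₀ _ hn.ne']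
    linarith
  have h1 := hK.dot_le hmem u
  have h2 := hK.dot_le (hK.sym x (interior_subset hx)) u
  rw [add_dotProduct, smul_dotProduct, smul_eq_mul] at h1
  rw [neg_dotProduct] at h2
  have h3 : 0 < u ⬝ᵥ u := lt_of_le_of_ne (Finset.sum_nonneg fun i _ => mul_self_nonneg (u i))
    (Ne.symm fun h => hu (dotProduct_self_eq_zero.1 h))
  have h4 : 0 < r / 2 / ‖u‖ * (u ⬝ᵥ u) := by positivity
  linarith

theorem isClosed_lw (a : ℝ) : IsClosed (lw a K L) := by
  rw [show lw a K L = ⋂ u, {x | x ⬝ᵥ u ≤ sh K u ^ (1 - a) * sh L u ^ a} by ext; simp [lw]]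
  exact isClosed_iInter fun u => isClosed_le (continuous_dot u) continuous_const

theorem isCompact_lw (hK : Good K) (hL : Good L) (a : ℝ) : IsCompact (lw a K L) := by
  refine (isCompact_univ_pi fun i : Fin n =>
    isCompact_Icc (a := -(sh K (Pi.single i 1) ^ (1 - a) * sh L (Pi.single i 1) ^ a))
      (b := sh K (Pi.single i 1) ^ (1 - a) * sh L (Pi.single i 1) ^ a)).of_isClosed_subset
    (isClosed_lw a) fun x hx i _ => ?_
  have h1 := hx (Pi.single i 1)
  have h2 := hx (-(Pi.single i 1))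
  rw [hK.sh_neg, hL.sh_neg, dotProduct_neg] at h2
  rw [dotProduct_single, mul_one] at h1 h2
  exact ⟨by linarith, h1⟩

/-- A weighted chord bound for the logarithm. -/
theorem half_log_le {ι : Type*} (s : Finset ι) (w x : ι → ℝ) (hw : ∀ i ∈ s, 0 ≤ w i)
    (hw1 : ∑ i ∈ s, w i = 1) {m q : ℝ} (hm : ∑ i ∈ s, w i * x i = m) (hq : 0 < q)
    (hx : ∀ i ∈ s, w i ≠ 0 → 0 < x i ∧ x i ^ 2 - 2 * m * x i + q ≤ 0) :
    Real.log q / 2 ≤ ∑ i ∈ s, w i * Real.log (x i) := by
  obtain ⟨i0, hi0, hwi0⟩ : ∃ i ∈ s, w i ≠ 0 := by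
    by_contra h
    push Not at h
    rw [Finset.sum_eq_zero h] at hw1
    exact zero_ne_one hw1
  obtain ⟨hx0, hxq⟩ := hx i0 hi0 hwi0
  have hd : 0 ≤ m ^ 2 - q := by nlinarith [sq_nonneg (x i0 - m)]
  set d := Real.sqrt (m ^ 2 - q) with hddef
  have hd0 : 0 ≤ d := Real.sqrt_nonneg _
  have hd2 : d ^ 2 = m ^ 2 - q := Real.sq_sqrt hd
  have hm0 : 0 < m := by nlinarith
  have hr : 0 < m - d := by nlinarith
  have hR : 0 < m + d := by linarith
  have hqeq : Real.log q = Real.log (m - d) + Real.log (m + d) := by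
    rw [← Real.log_mul hr.ne' hR.ne', show (m - d) * (m + d) = q by nlinarith]
  rcases hd0.eq_or_lt with hd' | hd'
  · have hxm : ∀ i ∈ s, w i * Real.log (x i) = w i * Real.log m := fun i hi => by
      by_cases h : w i = 0
      · simp [h]
      · rw [show x i = m by nlinarith [(hx i hi h).2, sq_nonneg (x i - m)]]
    rw [Finset.sum_congr rfl hxm, ← Finset.sum_mul, hw1, hqeq, ← hd']
    simp
  have key : ∀ i ∈ s, w i * (((m + d - x i) * Real.log (m - d)
      + (x i - (m - d)) * Real.log (m + d)) / (2 * d)) ≤ w i * Real.log (x i) := fun i hi => by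
    by_cases h : w i = 0
    · simp [h]
    obtain ⟨-, hi2⟩ := hx i hi h
    refine mul_le_mul_of_nonneg_left ?_ (hw i hi)
    have h1 : m - d ≤ x i := by nlinarith
    have h2 : x i ≤ m + d := by nlinarith
    have hc0 := strictConcaveOn_log_Ioi.concaveOn.2 (mem_Ioi.2 hr) (mem_Ioi.2 hR)
    have hc := @hc0 ((m + d - x i) / (2 * d)) ((x i - (m - d)) / (2 * d))
      (div_nonneg (by linarith) (by linarith)) (div_nonneg (by linarith) (by linarith))
      (by field_simp; ring)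
    simp only [smul_eq_mul] at hc
    rw [show (m + d - x i) / (2 * d) * (m - d) + (x i - (m - d)) / (2 * d) * (m + d) = x i by
      field_simp; ring] at hc
    refine le_trans (le_of_eq ?_) hc
    ring
  refine le_trans (le_of_eq ?_) (Finset.sum_le_sum key)
  have e : ∀ i, w i * (((m + d - x i) * Real.log (m - d)
      + (x i - (m - d)) * Real.log (m + d)) / (2 * d))
      = w i * (((m + d) * Real.log (m - d) - (m - d) * Real.log (m + d)) / (2 * d))
        + w i * x i * ((Real.log (m + d) - Real.log (m - d)) / (2 * d)) := fun i => by ring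
  rw [Finset.sum_congr rfl fun i _ => e i, Finset.sum_add_distrib, ← Finset.sum_mul,
    ← Finset.sum_mul, hw1, hm, hqeq]
  field_simp
  ring

/-- Hölder's inequality for two terms. -/
theorem geom_add_le {a x1 x2 y1 y2 : ℝ} (ha0 : 0 < a) (ha1 : a < 1) (hx1 : 0 ≤ x1) (hx2 : 0 ≤ x2)
    (hy1 : 0 ≤ y1) (hy2 : 0 ≤ y2) :
    x1 ^ (1 - a) * y1 ^ a + x2 ^ (1 - a) * y2 ^ a ≤ (x1 + x2) ^ (1 - a) * (y1 + y2) ^ a := by
  have hb : 0 < 1 - a := by linarith
  rcases eq_or_lt_of_le (add_nonneg hx1 hx2) with hX | hX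
  · obtain ⟨rfl, rfl⟩ : x1 = 0 ∧ x2 = 0 := ⟨by linarith, by linarith⟩
    simp [Real.zero_rpow hb.ne']
  rcases eq_or_lt_of_le (add_nonneg hy1 hy2) with hY | hY
  · obtain ⟨rfl, rfl⟩ : y1 = 0 ∧ y2 = 0 := ⟨by linarith, by linarith⟩
    simp [Real.zero_rpow ha0.ne']
  have h1 := Real.geom_mean_le_arith_mean2_weighted hb.le ha0.le
    (div_nonneg hx1 hX.le) (div_nonneg hy1 hY.le) (by ring)
  have h2 := Real.geom_mean_le_arith_mean2_weighted hb.le ha0.le
    (div_nonneg hx2 hX.le) (div_nonneg hy2 hY.le) (by ring)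
  rw [Real.div_rpow hx1 hX.le, Real.div_rpow hy1 hY.le] at h1
  rw [Real.div_rpow hx2 hX.le, Real.div_rpow hy2 hY.le] at h2
  have hP : 0 < (x1 + x2) ^ (1 - a) * (y1 + y2) ^ a := by positivity
  rw [div_mul_div_comm] at h1 h2
  have h3 := add_le_add h1 h2
  rw [← add_div, div_le_iff₀ hP] at h3
  refine h3.trans (le_of_eq ?_)
  have : (1 - a) * (x1 / (x1 + x2)) + a * (y1 / (y1 + y2))
      + ((1 - a) * (x2 / (x1 + x2)) + a * (y2 / (y1 + y2))) = 1 := by
    field_simp; ring
  rw [this, one_mul]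

end Vale.Agent.P227.Sym
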