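import Vale.Agent.P227.Sym.Planar

/-!
Adding one common plane of symmetry, and the logarithmic Brunn-Minkowski inequality for pairs
with all but two common coordinate reflections.
-/

namespace Vale.Agent.P227.Sym

open MeasureTheory Set
open scoped Pointwise ENNReal
open Vale.Agent.P074.BM (sect isCompact_sect sect_spec pl_one_dim)

/-- Invariance under the reflection in the coordinate `i`. -/
def Refl {n : ℕ} (i : Fin n) (K : Set (Fin n → ℝ)) : Prop :=
  ∀ x ∈ K, Function.update x i (-x i) ∈ K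

variable {n : ℕ}

theorem lw_neg {a : ℝ} {K L : Set (Fin n → ℝ)} (hK : Good K) (hL : Good L) {x : Fin n → ℝ}
    (hx : x ∈ lw a K L) : -x ∈ lw a K L := fun u => by
  have h := hx (-u)
  rwa [hK.sh_neg, hL.sh_neg, dotProduct_neg, ← neg_dotProduct] at h

section Step

variable {K L : Set (Fin (n + 1) → ℝ)}

theorem neg_zero_mem (hr : Refl 0 K) {t : ℝ} {v : Fin n → ℝ}
    (h : (Fin.cons t v : Fin (n + 1) → ℝ) ∈ K) : (Fin.cons (-t) v : Fin (n + 1) → ℝ) ∈ K := by
  have h' := hr _ h
  rwa [Fin.cons_zero, Fin.update_cons_zero] at h'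

theorem good_sect (hK : Good K) (hr : Refl 0 K) (t : ℝ) : Good (sect K t) := by
  refine ⟨isCompact_sect hK.cpt t, fun v hv w hw a b ha hb hab => ?_, fun v hv => ?_⟩
  · show (Fin.cons t (a • v + b • w) : Fin (n + 1) → ℝ) ∈ K
    convert hK.conv hv hw ha hb hab using 1
    funext i
    induction i using Fin.cases
    · simp [← add_mul, hab]
    · simp
  · show (Fin.cons t (-v) : Fin (n + 1) → ℝ) ∈ K
    convert hK.sym _ (neg_zero_mem hr hv) using 1
    funext i
    induction i using Fin.cases <;> simp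

theorem refl_sect {i : Fin n} (hr : Refl i.succ K) (t : ℝ) : Refl i (sect K t) := fun v hv => by
  show (Fin.cons t (Function.update v i (-v i)) : Fin (n + 1) → ℝ) ∈ K
  rw [Fin.cons_update]
  simpa using hr _ hv

theorem sh_sect_le (hK : Good K) (hr : Refl 0 K) {t : ℝ} (ht : 0 ≤ t)
    (hne : (sect K t).Nonempty) (c : ℝ) (w : Fin n → ℝ) :
    |c| * t + sh (sect K t) w ≤ sh K (Fin.cons c w) := by
  obtain ⟨v, hv, hv'⟩ := (good_sect hK hr t).exists_eq hne w
  have e : ∀ s : ℝ, (Fin.cons s v : Fin (n + 1) → ℝ) ⬝ᵥ Fin.cons c w = s * c + v ⬝ᵥ w := fun s => by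
    simp [dotProduct, Fin.sum_univ_succ]
  rcases le_or_gt 0 c with hc | hc
  · have := hK.dot_le hv (Fin.cons c w)
    rw [e, hv'] at this
    rw [abs_of_nonneg hc]
    linarith
  · have := hK.dot_le (neg_zero_mem hr hv) (Fin.cons c w)
    rw [e, hv'] at this
    rw [abs_of_neg hc]
    linarith

theorem lw_sect_subset {a : ℝ} (ha0 : 0 < a) (ha1 : a < 1) (hK : Good K) (hL : Good L)
    (hrK : Refl 0 K) (hrL : Refl 0 L) {t1 t2 : ℝ} (ht1 : 0 ≤ t1) (ht2 : 0 ≤ t2)
    (h1 : (sect K t1).Nonempty) (h2 : (sect L t2).Nonempty) :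
    lw a (sect K t1) (sect L t2) ⊆ sect (lw a K L) (t1 ^ (1 - a) * t2 ^ a) := by
  intro v hv u
  obtain ⟨c, w, rfl⟩ : ∃ c w, u = Fin.cons c w := ⟨u 0, Fin.tail u, (Fin.cons_self_tail u).symm⟩
  have hk := sh_sect_le hK hrK ht1 h1 c w
  have hl := sh_sect_le hL hrL ht2 h2 c w
  have hk0 := (good_sect hK hrK t1).sh_nonneg w
  have hl0 := (good_sect hL hrL t2).sh_nonneg w
  have hb : 0 < 1 - a := by linarith
  calc (Fin.cons (t1 ^ (1 - a) * t2 ^ a) v : Fin (n + 1) → ℝ) ⬝ᵥ Fin.cons c w
      = t1 ^ (1 - a) * t2 ^ a * c + v ⬝ᵥ w := by simp [dotProduct, Fin.sum_univ_succ]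
    _ ≤ (|c| * t1) ^ (1 - a) * (|c| * t2) ^ a
        + sh (sect K t1) w ^ (1 - a) * sh (sect L t2) w ^ a := by
        refine add_le_add (le_trans (mul_le_mul_of_nonneg_left (le_abs_self c) (by positivity))
          (le_of_eq ?_)) (hv w)
        rcases eq_or_lt_of_le (abs_nonneg c) with hc | hc
        · simp [← hc, Real.zero_rpow hb.ne']
        rw [Real.mul_rpow hc.le ht1, Real.mul_rpow hc.le ht2,
          show |c| ^ (1 - a) * t1 ^ (1 - a) * (|c| ^ a * t2 ^ a)
            = |c| ^ (1 - a) * |c| ^ a * (t1 ^ (1 - a) * t2 ^ a) by ring, ← Real.rpow_add hc,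
          sub_add_cancel, Real.rpow_one]
        ring
    _ ≤ (|c| * t1 + sh (sect K t1) w) ^ (1 - a) * (|c| * t2 + sh (sect L t2) w) ^ a :=
        geom_add_le ha0 ha1 (by positivity) hk0 (by positivity) hl0
    _ ≤ sh K (Fin.cons c w) ^ (1 - a) * sh L (Fin.cons c w) ^ a := by
        refine mul_le_mul (Real.rpow_le_rpow (by positivity) hk hb.le)
          (Real.rpow_le_rpow (by positivity) hl ha0.le) (by positivity) ?_
        exact Real.rpow_nonneg (le_trans (by positivity) hk) _

theorem volume_eq_two_mul {X : Set (Fin (n + 1) → ℝ)} (hX : IsCompact X)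
    (hs : ∀ x ∈ X, -x ∈ X) :
    volume X = 2 * ∫⁻ t in Ioi (0 : ℝ), volume (sect X t) := by
  obtain ⟨mX, eX⟩ := sect_spec hX
  have hev : ∀ t, volume (sect X (-t)) = volume (sect X t) := by
    intro t
    have e : sect X (-t) = -sect X t := by
      ext v
      have e1 : (Fin.cons t (-v) : Fin (n + 1) → ℝ) = -Fin.cons (-t) v := by
        funext i
        induction i using Fin.cases <;> simp
      constructor
      · intro hv
        show (Fin.cons t (-v) : Fin (n + 1) → ℝ) ∈ X
        exact e1 ▸ hs _ hv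
      · intro hv
        show (Fin.cons (-t) v : Fin (n + 1) → ℝ) ∈ X
        have h := hs _ (show (Fin.cons t (-v) : Fin (n + 1) → ℝ) ∈ X from hv)
        rwa [e1, neg_neg] at h
    rw [e, Measure.measure_neg]
  have hneg : ∫⁻ t in Iio (0 : ℝ), volume (sect X t) = ∫⁻ t in Ioi (0 : ℝ), volume (sect X t) := by
    rw [← (Measure.measurePreserving_neg (volume : Measure ℝ)).setLIntegral_comp_preimage
      measurableSet_Iio mX]
    simp [hev]
  rw [eX, ← lintegral_add_compl _ measurableSet_Ioi, compl_Ioi,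
    setLIntegral_congr Iio_ae_eq_Iic.symm, hneg, two_mul]

theorem setLIntegral_Ioi_eq {F : ℝ → ℝ≥0∞} :
    ∫⁻ t in Ioi (0 : ℝ), F t = ∫⁻ s, ENNReal.ofReal (Real.exp s) * F (Real.exp s) := by
  rw [← Real.range_exp, ← image_univ, lintegral_image_eq_lintegral_abs_deriv_mul MeasurableSet.univ
    (fun x _ => (Real.hasDerivAt_exp x).hasDerivWithinAt) Real.exp_injective.injOn F,
    Measure.restrict_univ]
  simp [abs_of_pos (Real.exp_pos _)]

/-- One more common plane of symmetry. -/
theorem step {a : ℝ} (ha0 : 0 < a) (ha1 : a < 1) (hK : Good K) (hL : Good L)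
    (hrK : Refl 0 K) (hrL : Refl 0 L)
    (ih : ∀ t1 t2 : ℝ, volume (sect K t1) ^ (1 - a) * volume (sect L t2) ^ a
      ≤ volume (lw a (sect K t1) (sect L t2))) :
    volume K ^ (1 - a) * volume L ^ a ≤ volume (lw a K L) := by
  have hb : 0 < 1 - a := by linarith
  set W := lw a K L with hW
  have hWc : IsCompact W := isCompact_lw hK hL a
  have hU : IsCompact (K ∪ L ∪ W) := (hK.cpt.union hL.cpt).union hWc
  obtain ⟨R, hR⟩ := hU.isBounded.exists_norm_le
  set U : Set (Fin n → ℝ) := (fun x : Fin (n + 1) → ℝ => fun i => x i.succ) '' (K ∪ L ∪ W) with hUd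
  have hUc : IsCompact U := hU.image (continuous_pi fun i => continuous_apply i.succ)
  set B : ℝ≥0∞ := ENNReal.ofReal R * volume U with hB
  have hbd : ∀ {X : Set (Fin (n + 1) → ℝ)}, X ⊆ K ∪ L ∪ W → ∀ s : ℝ,
      ENNReal.ofReal (Real.exp s) * volume (sect X (Real.exp s)) ≤ B := by
    intro X hX s
    rcases (sect X (Real.exp s)).eq_empty_or_nonempty with h | ⟨v, hv⟩
    · simp [h]
    refine mul_le_mul' (ENNReal.ofReal_le_ofReal ?_)
      (measure_mono fun w hw => ⟨_, hX hw, funext fun i => by simp⟩)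
    have h1 := (norm_le_pi_norm _ 0).trans (hR _ (hX hv))
    rwa [Fin.cons_zero, Real.norm_eq_abs, abs_of_pos (Real.exp_pos s)] at h1
  have hm : ∀ {X : Set (Fin (n + 1) → ℝ)}, IsCompact X →
      Measurable fun s : ℝ => ENNReal.ofReal (Real.exp s) * volume (sect X (Real.exp s)) := fun hX =>
    (ENNReal.measurable_ofReal.comp Real.measurable_exp).mul
      ((sect_spec hX).1.comp Real.measurable_exp)
  have hpl := pl_one_dim ha0 ha1 (hm hK.cpt) (hm hL.cpt) (hm hWc)
    (ENNReal.mul_ne_top ENNReal.ofReal_ne_top hUc.measure_lt_top.ne)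
    (hbd (subset_union_left.trans subset_union_left))
    (hbd (subset_union_right.trans subset_union_left)) (hbd subset_union_right) (fun p q => by
      have e : Real.exp ((1 - a) * p + a * q) = Real.exp p ^ (1 - a) * Real.exp q ^ a := by
        rw [← Real.exp_mul, ← Real.exp_mul, ← Real.exp_add]
        ring_nf
      rw [ENNReal.mul_rpow_of_nonneg _ _ hb.le, ENNReal.mul_rpow_of_nonneg _ _ ha0.le,
        mul_mul_mul_comm, ENNReal.ofReal_rpow_of_pos (Real.exp_pos p),
        ENNReal.ofReal_rpow_of_pos (Real.exp_pos q), ← ENNReal.ofReal_mul (by positivity), ← e]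
      refine mul_le_mul_right ?_ _
      rcases (sect K (Real.exp p)).eq_empty_or_nonempty with h1 | h1
      · simp [h1, ENNReal.zero_rpow_of_pos hb]
      rcases (sect L (Real.exp q)).eq_empty_or_nonempty with h2 | h2
      · simp [h2, ENNReal.zero_rpow_of_pos ha0]
      refine (ih _ _).trans (measure_mono ?_)
      rw [e]
      exact lw_sect_subset ha0 ha1 hK hL hrK hrL (Real.exp_pos p).le (Real.exp_pos q).le h1 h2)
  rw [← setLIntegral_Ioi_eq (F := fun t => volume (sect K t)),
    ← setLIntegral_Ioi_eq (F := fun t => volume (sect L t)),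
    ← setLIntegral_Ioi_eq (F := fun t => volume (sect W t))] at hpl
  rw [volume_eq_two_mul hK.cpt hK.sym, volume_eq_two_mul hL.cpt hL.sym,
    volume_eq_two_mul hWc (fun x hx => lw_neg hK hL hx), ENNReal.mul_rpow_of_nonneg _ _ hb.le,
    ENNReal.mul_rpow_of_nonneg _ _ ha0.le, mul_mul_mul_comm,
    ← ENNReal.rpow_add _ _ (by norm_num) (by norm_num), sub_add_cancel, ENNReal.rpow_one]
  exact mul_le_mul_right hpl _

end Step

/-- The inequality for pairs invariant under all but the last two coordinate reflections. -/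
theorem main {a : ℝ} (ha0 : 0 < a) (ha1 : a < 1) : ∀ (n : ℕ) (K L : Set (Fin n → ℝ)),
    Good K → Good L → (∀ i : Fin n, (i : ℕ) + 2 < n → Refl i K ∧ Refl i L) →
    volume K ^ (1 - a) * volume L ^ a ≤ volume (lw a K L) := by
  intro n
  induction n with
  | zero =>
    intro K L hK hL _
    rcases K.eq_empty_or_nonempty with rfl | hKn
    · simp [ENNReal.zero_rpow_of_pos (by linarith : 0 < 1 - a)]
    rcases L.eq_empty_or_nonempty with rfl | hLn
    · simp [ENNReal.zero_rpow_of_pos ha0]
    have hne : (lw a K L).Nonempty := ⟨0, fun u => by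
      rw [zero_dotProduct]
      exact mul_nonneg (Real.rpow_nonneg (hK.sh_nonneg u) _) (Real.rpow_nonneg (hL.sh_nonneg u) _)⟩
    rw [Subsingleton.eq_univ_of_nonempty hne, Subsingleton.eq_univ_of_nonempty hKn,
      Subsingleton.eq_univ_of_nonempty hLn]
    simp [volume_pi]
  | succ n ih =>
    intro K L hK hL href
    by_cases h : n = 1
    · subst h
      exact planar hK hL ha0 ha1
    have hr0 : Refl (0 : Fin (n + 1)) K ∧ Refl (0 : Fin (n + 1)) L := by
      rcases Nat.eq_zero_or_pos n with rfl | hn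
      · constructor <;>
        · intro x hx
          have e : Function.update x (0 : Fin (0 + 1)) (-x 0) = -x := by
            funext i
            fin_cases i
            simp
          rw [e]
          first | exact hK.sym x hx | exact hL.sym x hx
      · exact href 0 (by simp; omega)
    refine step ha0 ha1 hK hL hr0.1 hr0.2 fun t1 t2 => ?_
    refine ih _ _ (good_sect hK hr0.1 t1) (good_sect hL hr0.2 t2) fun i hi => ?_
    obtain ⟨hiK, hiL⟩ := href i.succ (by simp; omega)
    exact ⟨refl_sect hiK t1, refl_sect hiL t2⟩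

end Vale.Agent.P227.Sym
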