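import Vale.Agent.P227.Sym.Basic
import Vale.Agent.P074.BM

/-!
The planar logarithmic Brunn-Minkowski inequality, by an elementary argument: cones over a
partition of a polygon, and Fubini along a common projection.
-/

namespace Vale.Agent.P227.Sym

open MeasureTheory Set
open scoped Pointwise ENNReal
open Vale.Agent.P074.BM (sect isCompact_sect sect_spec one_dim_compact)

/-- A convex combination of two symmetric sets with the same projection. -/
theorem fubini_combination {H t : ℝ} {B M C : Set (Fin 2 → ℝ)} (hB : Good B) (hM : Good M)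
    (hC : IsCompact C) (ht0 : 0 ≤ t) (ht1 : t ≤ 1) (hBH : ∀ x ∈ B, |x 0| ≤ H)
    (hMH : ∀ x ∈ M, |x 0| ≤ H) {p : Fin 2 → ℝ} (hp : p ∈ B) (hp0 : p 0 = H) {q : Fin 2 → ℝ}
    (hq : q ∈ M) (hq0 : q 0 = H)
    (hsub : ∀ x ∈ B, ∀ y ∈ M, (1 - t) • x + t • y ∈ C) :
    (1 - t) * volume.real B + t * volume.real M ≤ volume.real C := by
  obtain ⟨mB, eB⟩ := sect_spec hB.cpt
  obtain ⟨mM, eM⟩ := sect_spec hM.cpt
  obtain ⟨-, eC⟩ := sect_spec hC
  have hne : ∀ {X : Set (Fin 2 → ℝ)}, Good X → ∀ {r : Fin 2 → ℝ}, r ∈ X → r 0 = H →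
      ∀ s : ℝ, |s| ≤ H → (sect X s).Nonempty := by
    intro X hX r hr hr0 s hs
    obtain ⟨l, hl, hls⟩ : ∃ l : ℝ, |l| ≤ 1 ∧ l * H = s := by
      rcases eq_or_ne H 0 with h | h
      · exact ⟨0, by simp, by rw [h, abs_nonpos_iff] at hs; simp [hs]⟩
      · have hpos : 0 < H := lt_of_le_of_ne ((abs_nonneg s).trans hs) (Ne.symm h)
        refine ⟨s / H, ?_, div_mul_cancel₀ s h⟩
        rw [abs_div, abs_of_pos hpos]
        exact (div_le_one hpos).2 hs
    have hmem : l • r ∈ X := by
      obtain ⟨h1, h2⟩ := abs_le.1 hl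
      have h := hX.conv hr (hX.sym r hr) (a := (1 + l) / 2) (b := (1 - l) / 2) (by linarith)
        (by linarith) (by ring)
      convert h using 1
      funext i
      simp
      ring
    refine ⟨fun i => (l • r) i.succ, ?_⟩
    show (Fin.cons s (fun i => (l • r) i.succ) : Fin 2 → ℝ) ∈ X
    convert hmem using 1
    funext i
    induction i using Fin.cases
    · simp [hr0, hls]
    · simp
  have key : ∀ s : ℝ, ENNReal.ofReal (1 - t) * volume (sect B s)
      + ENNReal.ofReal t * volume (sect M s) ≤ volume (sect C s) := by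
    intro s
    rcases le_or_gt |s| H with hs | hs
    · have hh : ∀ X : Set (Fin 1 → ℝ), volume X = volume ((fun v : Fin 1 → ℝ => v 0) '' X) := by
        intro X
        have e : (fun v : Fin 1 → ℝ => v 0) '' X = (MeasurableEquiv.funUnique (Fin 1) ℝ) '' X := by
          rfl
        rw [e, MeasurableEquiv.image_eq_preimage_symm]
        exact ((volume_preserving_funUnique (Fin 1) ℝ).symm.measure_preimage_equiv X).symm
      rw [hh (sect B s), hh (sect M s), hh (sect C s)]
      refine one_dim_compact ht0 ht1 ((isCompact_sect hB.cpt s).image (continuous_apply 0))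
        ((isCompact_sect hM.cpt s).image (continuous_apply 0))
        ((hne hB hp hp0 s hs).image _) ((hne hM hq hq0 s hs).image _) ?_
      rintro _ ⟨v, hv, rfl⟩ _ ⟨w, hw, rfl⟩
      refine ⟨(1 - t) • v + t • w, ?_, by simp⟩
      have h := hsub _ hv _ hw
      show (Fin.cons s ((1 - t) • v + t • w) : Fin 2 → ℝ) ∈ C
      convert h using 1
      funext i
      induction i using Fin.cases
      · simp; ring
      · simp
    · have he : ∀ {X : Set (Fin 2 → ℝ)}, (∀ x ∈ X, |x 0| ≤ H) → sect X s = ∅ := by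
        intro X hX
        refine eq_empty_iff_forall_notMem.2 fun v hv => ?_
        have := hX _ hv
        simp at this
        linarith
      simp [he hBH, he hMH]
  have h2 : ENNReal.ofReal (1 - t) * volume B + ENNReal.ofReal t * volume M ≤ volume C := by
    rw [eB, eM, eC, ← lintegral_const_mul' _ _ ENNReal.ofReal_ne_top,
      ← lintegral_const_mul' _ _ ENNReal.ofReal_ne_top, ← lintegral_add_left (mB.const_mul _)]
    exact lintegral_mono key
  have h3 := ENNReal.toReal_mono hC.measure_lt_top.ne h2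
  rw [ENNReal.toReal_add (ENNReal.mul_ne_top ENNReal.ofReal_ne_top hB.cpt.measure_lt_top.ne)
    (ENNReal.mul_ne_top ENNReal.ofReal_ne_top hM.cpt.measure_lt_top.ne),
    ENNReal.toReal_mul, ENNReal.toReal_mul, ENNReal.toReal_ofReal (by linarith),
    ENNReal.toReal_ofReal ht0] at h3
  exact h3

/-- The same, with respect to an arbitrary direction. -/
theorem fubini_direction {t : ℝ} {u : Fin 2 → ℝ} (hu : u ≠ 0) {B M C : Set (Fin 2 → ℝ)}
    (hB : Good B) (hM : Good M) (hBn : B.Nonempty) (hMn : M.Nonempty) (hC : IsCompact C)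
    (ht0 : 0 ≤ t) (ht1 : t ≤ 1) (heq : sh B u = sh M u)
    (hsub : ∀ x ∈ B, ∀ y ∈ M, (1 - t) • x + t • y ∈ C) :
    (1 - t) * volume.real B + t * volume.real M ≤ volume.real C := by
  set T : (Fin 2 → ℝ) →ₗ[ℝ] Fin 2 → ℝ := Matrix.toLin' !![u 0, u 1; -u 1, u 0] with hT
  have hdet : 0 < LinearMap.det T := by
    rw [hT, LinearMap.det_toLin', Matrix.det_fin_two_of]
    by_contra h
    refine hu (funext fun i => ?_)
    fin_cases i <;> simp <;> nlinarith [mul_self_nonneg (u 0), mul_self_nonneg (u 1)]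
  have hT0 : ∀ x, T x 0 = x ⬝ᵥ u := fun x => by
    simp [hT, Matrix.toLin'_apply, Matrix.mulVec, dotProduct, Fin.sum_univ_two, mul_comm]
  have hTc : Continuous T := T.continuous_of_finiteDimensional
  have hTG : ∀ {X : Set (Fin 2 → ℝ)}, Good X → Good (T '' X) := fun hX =>
    ⟨hX.cpt.image hTc, hX.conv.linear_image T, by
      rintro _ ⟨x, hx, rfl⟩
      exact ⟨-x, hX.sym x hx, map_neg T x⟩⟩
  have hbd : ∀ {X : Set (Fin 2 → ℝ)}, Good X → ∀ x ∈ T '' X, |x 0| ≤ sh X u := by
    rintro X hX _ ⟨x, hx, rfl⟩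
    rw [hT0]
    exact hX.abs_dot_le hx u
  obtain ⟨p, hp, hp'⟩ := hB.exists_eq hBn u
  obtain ⟨q, hq, hq'⟩ := hM.exists_eq hMn u
  have h := fubini_combination (H := sh B u) (hTG hB) (hTG hM) (hC.image hTc) ht0 ht1 (hbd hB)
    (fun x hx => (hbd hM x hx).trans heq.ge) (mem_image_of_mem T hp) (by rw [hT0, hp'])
    (mem_image_of_mem T hq) (by rw [hT0, hq', heq])
    (by
      rintro _ ⟨x, hx, rfl⟩ _ ⟨y, hy, rfl⟩
      exact ⟨_, hsub x hx y hy, by simp⟩)
  have hv : ∀ X : Set (Fin 2 → ℝ), volume.real (T '' X) = LinearMap.det T * volume.real X := by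
    intro X
    rw [measureReal_def, Measure.addHaar_image_linearMap, ENNReal.toReal_mul,
      ENNReal.toReal_ofReal (abs_nonneg _), abs_of_pos hdet, measureReal_def]
  rw [hv, hv, hv] at h
  nlinarith

section Polygon

variable {N : ℕ} (d : Fin N → Fin 2 → ℝ) (f : Fin N → ℝ)

/-- A symmetric polygon given by its slabs. -/
def pol : Set (Fin 2 → ℝ) := {x | ∀ i, |x ⬝ᵥ d i| ≤ f i}

/-- The part of the polygon where the slab `i` is the first most binding one. -/
def piece (i : Fin N) : Set (Fin 2 → ℝ) :=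
  pol d f ∩ {x | (∀ j, |x ⬝ᵥ d j| / f j ≤ |x ⬝ᵥ d i| / f i) ∧
    ∀ j, j < i → |x ⬝ᵥ d j| / f j < |x ⬝ᵥ d i| / f i}

variable {d f}

theorem isClosed_pol : IsClosed (pol d f) := by
  rw [show pol d f = ⋂ i, {x | |x ⬝ᵥ d i| ≤ f i} by ext; simp [pol]]
  exact isClosed_iInter fun i => isClosed_le (continuous_dot _).abs continuous_const

theorem isCompact_pol (h2 : ∀ k : Fin 2, ∃ i, d i = Pi.single k 1) : IsCompact (pol d f) := by
  choose g hg using h2
  refine (isCompact_univ_pi fun k : Fin 2 => isCompact_Icc (a := -f (g k))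
    (b := f (g k))).of_isClosed_subset isClosed_pol fun x hx k _ => ?_
  have h := hx (g k)
  rw [hg, dotProduct_single, mul_one] at h
  exact abs_le.1 h

theorem convex_pol : Convex ℝ (pol d f) := by
  intro x hx y hy a b ha hb hab i
  rw [add_dotProduct, smul_dotProduct, smul_dotProduct, smul_eq_mul, smul_eq_mul]
  calc |a * (x ⬝ᵥ d i) + b * (y ⬝ᵥ d i)| ≤ a * |x ⬝ᵥ d i| + b * |y ⬝ᵥ d i| := by
        refine (abs_add_le _ _).trans (le_of_eq ?_)
        rw [abs_mul, abs_mul, abs_of_nonneg ha, abs_of_nonneg hb]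
    _ ≤ a * f i + b * f i := by gcongr <;> [exact hx i; exact hy i]
    _ = f i := by rw [← add_mul, hab, one_mul]

theorem measurableSet_piece (i : Fin N) : MeasurableSet (piece d f i) := by
  refine isClosed_pol.measurableSet.inter ?_
  simp only [ofPred_and, ofPred_forall]
  refine (MeasurableSet.iInter fun j => ?_).inter
    (MeasurableSet.iInter fun j => MeasurableSet.iInter fun _ => ?_)
  · exact measurableSet_le ((continuous_dot _).abs.div_const _).measurable
      ((continuous_dot _).abs.div_const _).measurable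
  · exact measurableSet_lt ((continuous_dot _).abs.div_const _).measurable
      ((continuous_dot _).abs.div_const _).measurable

theorem pairwise_disjoint_piece : Pairwise (Function.onFun Disjoint (piece d f)) := by
  intro i j hij
  refine Set.disjoint_left.2 fun x hi hj => ?_
  rcases lt_or_gt_of_ne hij with h | h
  · exact absurd (hi.2.1 j) (not_le.2 (hj.2.2 i h))
  · exact absurd (hj.2.1 i) (not_le.2 (hi.2.2 j h))

theorem exists_first (hN : 0 < N) (x : Fin 2 → ℝ) : ∃ i,
    (∀ j, |x ⬝ᵥ d j| / f j ≤ |x ⬝ᵥ d i| / f i) ∧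
      ∀ j, j < i → |x ⬝ᵥ d j| / f j < |x ⬝ᵥ d i| / f i := by
  have : Nonempty (Fin N) := ⟨⟨0, hN⟩⟩
  obtain ⟨i0, hi0⟩ := Finite.exists_max fun j => |x ⬝ᵥ d j| / f j
  set s := Finset.univ.filter fun i => |x ⬝ᵥ d i| / f i = |x ⬝ᵥ d i0| / f i0 with hs
  have hne : s.Nonempty := ⟨i0, by simp [hs]⟩
  have hi : |x ⬝ᵥ d (s.min' hne)| / f (s.min' hne) = |x ⬝ᵥ d i0| / f i0 :=
    (Finset.mem_filter.1 (s.min'_mem hne)).2
  refine ⟨s.min' hne, fun j => (hi0 j).trans hi.ge, fun j hj => ?_⟩
  refine lt_of_le_of_ne ((hi0 j).trans hi.ge) fun h => ?_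
  exact (Finset.min'_le s j (Finset.mem_filter.2 ⟨Finset.mem_univ j, h.trans hi⟩)).not_gt hj

theorem iUnion_piece (hN : 0 < N) : ⋃ i, piece d f i = pol d f := by
  refine Subset.antisymm (iUnion_subset fun i => inter_subset_left) fun x hx => ?_
  obtain ⟨i, hi⟩ := exists_first (d := d) (f := f) hN x
  exact mem_iUnion.2 ⟨i, hx, hi⟩

variable (hf : ∀ i, d i ≠ 0 → 0 < f i) (hf0 : ∀ i, d i = 0 → f i = 0)
  (h2 : ∀ k : Fin 2, ∃ i, d i = Pi.single k 1)
include hf hf0 h2

/-- A piece of positive measure has its slab touching the polygon. -/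
theorem piece_spec {i : Fin N} (hv : volume (piece d f i) ≠ 0) :
    d i ≠ 0 ∧ ∃ z ∈ pol d f, |z ⬝ᵥ d i| = f i := by
  obtain ⟨x, hx, hx0⟩ : ∃ x ∈ piece d f i, x ≠ 0 := by
    by_contra h
    push Not at h
    exact hv (measure_mono_null (fun x hx => mem_singleton_iff.2 (h x hx)) (measure_singleton 0))
  obtain ⟨hxP, hmax, -⟩ := hx
  have hpos : 0 < |x ⬝ᵥ d i| / f i := by
    by_contra h
    refine hx0 (funext fun k => ?_)
    obtain ⟨j, hj⟩ := h2 k
    have h1 := (hmax j).trans (not_lt.1 h)
    have hdj : d j ≠ 0 := by rw [hj]; simp [funext_iff, Pi.single_apply]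
    have h3 : |x ⬝ᵥ d j| ≤ 0 := by
      by_contra h4
      exact absurd h1 (not_le.2 (div_pos (not_le.1 h4) (hf j hdj)))
    rw [abs_nonpos_iff, hj, dotProduct_single, mul_one] at h3
    simpa using h3
  have hdi : d i ≠ 0 := fun h => by simp [h, hf0 i h] at hpos
  refine ⟨hdi, (|x ⬝ᵥ d i| / f i)⁻¹ • x, fun j => ?_, ?_⟩
  · rw [smul_dotProduct, smul_eq_mul, abs_mul, abs_inv, abs_of_pos hpos, inv_mul_le_iff₀ hpos]
    by_cases hj : d j = 0
    · simp [hj, hf0 j hj]
    · exact (div_le_iff₀ (hf j hj)).1 (hmax j)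
  · rw [smul_dotProduct, smul_eq_mul, abs_mul, abs_inv, abs_of_pos hpos]
    have : |x ⬝ᵥ d i| ≠ 0 := fun h => by rw [h, zero_div] at hpos; exact lt_irrefl _ hpos
    field_simp

theorem volume_pol_pos : 0 < volume.real (pol d f) := by
  refine ENNReal.toReal_pos ?_ (isCompact_pol h2).measure_lt_top.ne
  have hs : (⋂ i ∈ {i | d i ≠ 0}, {x : Fin 2 → ℝ | |x ⬝ᵥ d i| < f i}) ⊆ pol d f := by
    intro x hx i
    by_cases hi : d i = 0
    · simp [hi, hf0 i hi]
    · exact le_of_lt (mem_iInter₂.1 hx i hi : |x ⬝ᵥ d i| < f i)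
  have ho : IsOpen (⋂ i ∈ {i | d i ≠ 0}, {x : Fin 2 → ℝ | |x ⬝ᵥ d i| < f i}) :=
    (Set.toFinite _).isOpen_biInter fun i _ => isOpen_lt (continuous_dot _).abs continuous_const
  refine ((ho.measure_pos volume ?_).trans_le (measure_mono hs)).ne'
  exact ⟨0, mem_iInter₂.2 fun i hi => by simpa using hf i hi⟩

omit hf hf0 in
theorem sum_piece (hN : 0 < N) : ∑ i, volume.real (piece d f i) = volume.real (pol d f) := by
  rw [← measureReal_iUnion_fintype pairwise_disjoint_piece measurableSet_piece
    (fun i => ((measure_mono inter_subset_left).trans_lt (isCompact_pol h2).measure_lt_top).ne),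
    iUnion_piece hN]

/-- The quadratic inequality for every binding slab. -/
theorem ratio_bound (hN : 0 < N) {M : Set (Fin 2 → ℝ)} (hM : Good M) (hMv : volume M ≠ 0)
    {i : Fin N} (hv : volume (piece d f i) ≠ 0) :
    0 < sh M (d i) / f i ∧
    (sh M (d i) / f i) ^ 2 * volume.real (pol d f) + volume.real M
      ≤ 2 * (sh M (d i) / f i) * ∑ j, volume.real (piece d f j) * (sh M (d j) / f j) := by
  obtain ⟨hdi, z, hz, hzi⟩ := piece_spec hf hf0 h2 hv
  set P := pol d f with hP
  set c := sh M (d i) / f i with hc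
  set x : Fin N → ℝ := fun j => sh M (d j) / f j with hx
  have hx0 : ∀ j, 0 ≤ x j := fun j => by
    by_cases hj : d j = 0
    · simp [hx, hf0 j hj]
    · exact div_nonneg (hM.sh_nonneg _) (hf j hj).le
  have hc0 : 0 < c := div_pos (hM.sh_pos hMv hdi) (hf i hdi)
  set S := ∑ j, volume.real (piece d f j) * x j with hS
  set S2 := ∑ j, volume.real (piece d f j) * x j ^ 2 with hS2
  refine ⟨hc0, ?_⟩
  have key : ∀ t : ℝ, 0 < t → t < 1 →
      volume.real M ≤ -(1 - t) * c ^ 2 * volume.real P + 2 * (1 - t) * c * S + t * S2 := by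
    intro t ht0 ht1
    have hlam : 0 < (1 - t) * c := mul_pos (by linarith) hc0
    set Q : Set (Fin 2 → ℝ) := pol d (fun j => (1 - t) * c * f j + t * sh M (d j)) with hQ
    have hPG : Good (c • P) := by
      refine ⟨(isCompact_pol h2).smul c, convex_pol.smul c, ?_⟩
      rintro _ ⟨w, hw, rfl⟩
      exact ⟨-w, fun j => by rw [neg_dotProduct, abs_neg]; exact hw j, by simp⟩
    have hzc : c • z ∈ c • P := smul_mem_smul_set hz
    have hshP : sh (c • P) (d i) = sh M (d i) := by
      have hcf : c * f i = sh M (d i) := div_mul_cancel₀ _ (hf i hdi).ne'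
      refine le_antisymm (csSup_le (image_nonempty.2 ⟨_, hzc⟩) ?_) ?_
      · rintro _ ⟨_, ⟨w, hw, rfl⟩, rfl⟩
        simp only [smul_dotProduct, smul_eq_mul]
        rw [← hcf]
        exact mul_le_mul_of_nonneg_left ((le_abs_self _).trans (hw i)) hc0.le
      · have := hPG.abs_dot_le hzc (d i)
        rwa [smul_dotProduct, smul_eq_mul, abs_mul, abs_of_pos hc0, hzi, hcf] at this
    have hMn : M.Nonempty := nonempty_of_measure_ne_zero hMv
    have hfub := fubini_direction hdi hPG hM ⟨_, hzc⟩ hMn (isCompact_pol (d := d)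
      (f := fun j => (1 - t) * c * f j + t * sh M (d j)) h2) ht0.le ht1.le hshP
      (by
        rintro _ ⟨w, hw, rfl⟩ y hy j
        simp only [add_dotProduct, smul_dotProduct, smul_eq_mul]
        refine (abs_add_le _ _).trans (add_le_add ?_ ?_)
        · rw [← mul_assoc, abs_mul, abs_of_pos hlam]
          exact mul_le_mul_of_nonneg_left (hw j) hlam.le
        · rw [abs_mul, abs_of_pos ht0]
          exact mul_le_mul_of_nonneg_left (hM.abs_dot_le hy _) ht0.le)
    have hQsub : Q ⊆ ⋃ j, ((1 - t) * c + t * x j) • piece d f j := by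
      intro w hw
      obtain ⟨j, hj, hjs⟩ := exists_first (d := d) (f := f) hN w
      have hmu : 0 < (1 - t) * c + t * x j := add_pos_of_pos_of_nonneg hlam (mul_nonneg ht0.le (hx0 j))
      refine mem_iUnion.2 ⟨j, (mem_smul_set_iff_inv_smul_mem₀ hmu.ne' _ _).2 ?_⟩
      have hscale : ∀ k, |(((1 - t) * c + t * x j)⁻¹ • w) ⬝ᵥ d k| / f k
          = ((1 - t) * c + t * x j)⁻¹ * (|w ⬝ᵥ d k| / f k) := fun k => by
        rw [smul_dotProduct, smul_eq_mul, abs_mul, abs_of_pos (inv_pos.2 hmu)]
        ring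
      refine ⟨fun k => ?_, fun k => ?_, fun k hk => ?_⟩
      · by_cases hk : d k = 0
        · simp [hk, hf0 k hk]
        rw [← div_le_one (hf k hk), hscale, inv_mul_le_iff₀ hmu, mul_one]
        refine (hj k).trans ?_
        by_cases hdj : d j = 0
        · simp only [hdj, dotProduct_zero, abs_zero, zero_div]
          exact hmu.le
        rw [div_le_iff₀ (hf j hdj)]
        refine (hw j).trans (le_of_eq ?_)
        have hfj := (hf j hdj).ne'
        simp only [hx]
        field_simp
      · rw [hscale, hscale]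
        exact mul_le_mul_of_nonneg_left (hj k) (inv_pos.2 hmu).le
      · rw [hscale, hscale]
        exact mul_lt_mul_of_pos_left (hjs k hk) (inv_pos.2 hmu)
    have hpf : ∀ j, volume (piece d f j) ≠ ∞ := fun j =>
      ((measure_mono inter_subset_left).trans_lt (isCompact_pol h2).measure_lt_top).ne
    have hsc : ∀ (r : ℝ) (X : Set (Fin 2 → ℝ)), volume.real (r • X) = r ^ 2 * volume.real X := by
      intro r X
      rw [measureReal_def, Measure.addHaar_smul, ENNReal.toReal_mul, Module.finrank_fin_fun,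
        ENNReal.toReal_ofReal (abs_nonneg _), abs_pow, sq_abs, measureReal_def]
    have hvQ : volume.real Q
        ≤ ∑ j, volume.real (piece d f j) * ((1 - t) * c + t * x j) ^ 2 := by
      refine (measureReal_mono hQsub ?_).trans ((measureReal_iUnion_fintype_le _).trans (le_of_eq ?_))
      · refine (lt_of_le_of_lt (measure_iUnion_fintype_le volume _) (ENNReal.sum_lt_top.2 fun j _ => ?_)).ne
        rw [Measure.addHaar_smul]
        exact ENNReal.mul_lt_top ENNReal.ofReal_lt_top (hpf j).lt_top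
      · exact Finset.sum_congr rfl fun j _ => by rw [hsc, mul_comm]
    have hexp : ∑ j, volume.real (piece d f j) * ((1 - t) * c + t * x j) ^ 2
        = (1 - t) ^ 2 * c ^ 2 * volume.real P + 2 * t * (1 - t) * c * S + t ^ 2 * S2 := by
      rw [hP, ← sum_piece h2 hN, hS, hS2, Finset.mul_sum, Finset.mul_sum, Finset.mul_sum,
        ← Finset.sum_add_distrib, ← Finset.sum_add_distrib]
      exact Finset.sum_congr rfl fun j _ => by ring
    rw [hsc] at hfub
    have h := hfub.trans (hvQ.trans hexp.le)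
    refine le_of_mul_le_mul_left ?_ ht0
    nlinarith [h]
  have hlim : Filter.Tendsto
      (fun t : ℝ => -(1 - t) * c ^ 2 * volume.real P + 2 * (1 - t) * c * S + t * S2)
      (nhdsWithin 0 (Ioi 0)) (nhds (-c ^ 2 * volume.real P + 2 * c * S)) := by
    have hc' : Continuous fun t : ℝ =>
        -(1 - t) * c ^ 2 * volume.real P + 2 * (1 - t) * c * S + t * S2 := by fun_prop
    simpa using (hc'.tendsto 0).mono_left nhdsWithin_le_nhds
  have := ge_of_tendsto hlim (Filter.eventually_of_mem (Ioo_mem_nhdsGT zero_lt_one)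
    fun t ht => key t ht.1 ht.2)
  linarith

/-- The logarithmic Minkowski inequality at the polygon. -/
theorem log_minkowski_pol (hN : 0 < N) {M : Set (Fin 2 → ℝ)} (hM : Good M) (hMv : volume M ≠ 0) :
    Real.log (volume.real M / volume.real (pol d f)) / 2
      ≤ ∑ i, volume.real (piece d f i) / volume.real (pol d f) * Real.log (sh M (d i) / f i) := by
  have hA := volume_pol_pos hf hf0 h2
  have hMr : 0 < volume.real M := ENNReal.toReal_pos hMv hM.cpt.measure_lt_top.ne
  refine half_log_le Finset.univ _ _ (fun i _ => div_nonneg measureReal_nonneg hA.le)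
    (by rw [← Finset.sum_div, sum_piece h2 hN, div_self hA.ne']) rfl (div_pos hMr hA)
    fun i _ hi => ?_
  have hv : volume (piece d f i) ≠ 0 := fun h => hi (by simp [measureReal_def, h])
  obtain ⟨h0, h1⟩ := ratio_bound hf hf0 h2 hN hM hMv hv
  refine ⟨h0, ?_⟩
  have e : ∑ j, volume.real (piece d f j) / volume.real (pol d f) * (sh M (d j) / f j)
      = (∑ j, volume.real (piece d f j) * (sh M (d j) / f j)) / volume.real (pol d f) := by
    rw [Finset.sum_div]
    exact Finset.sum_congr rfl fun j _ => by ring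
  rw [e]
  set X := ∑ j, volume.real (piece d f j) * (sh M (d j) / f j)
  have : ((sh M (d i) / f i) ^ 2 - 2 * (X / volume.real (pol d f)) * (sh M (d i) / f i)
      + volume.real M / volume.real (pol d f)) * volume.real (pol d f) ≤ 0 := by
    rw [add_mul, sub_mul, div_mul_cancel₀ _ hA.ne',
      show 2 * (X / volume.real (pol d f)) * (sh M (d i) / f i) * volume.real (pol d f)
        = 2 * (sh M (d i) / f i) * (X / volume.real (pol d f) * volume.real (pol d f)) by ring,
      div_mul_cancel₀ _ hA.ne']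
    linarith
  exact nonpos_of_mul_nonpos_left this hA

end Polygon

/-- The logarithmic Brunn-Minkowski inequality in the plane. -/
theorem planar {K L : Set (Fin 2 → ℝ)} (hK : Good K) (hL : Good L) {a : ℝ} (ha0 : 0 < a)
    (ha1 : a < 1) : volume K ^ (1 - a) * volume L ^ a ≤ volume (lw a K L) := by
  have hb : 0 < 1 - a := by linarith
  rcases eq_or_ne (volume K) 0 with hKv | hKv
  · simp [hKv, ENNReal.zero_rpow_of_pos hb]
  rcases eq_or_ne (volume L) 0 with hLv | hLv
  · simp [hLv, ENNReal.zero_rpow_of_pos ha0]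
  set F : (Fin 2 → ℝ) → ℝ := fun u => sh K u ^ (1 - a) * sh L u ^ a with hF
  have hFc : Continuous F :=
    (hK.continuous_sh.rpow_const fun _ => Or.inr hb.le).mul
      (hL.continuous_sh.rpow_const fun _ => Or.inr ha0.le)
  have hF0 : F 0 = 0 := by
    have : sh K 0 = 0 := by simpa using sh_smul (K := K) 0 le_rfl 0
    simp [hF, this, Real.zero_rpow hb.ne']
  set e := TopologicalSpace.denseSeq (Fin 2 → ℝ) with he
  set D : (N : ℕ) → Fin (N + 2) → Fin 2 → ℝ :=
    fun N => Fin.cons (Pi.single 0 1) (Fin.cons (Pi.single 1 1) fun i => e i) with hD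
  set P : ℕ → Set (Fin 2 → ℝ) := fun N => pol (D N) fun i => F (D N i) with hP
  have h2 : ∀ N, ∀ k : Fin 2, ∃ i, D N i = Pi.single k 1 := fun N k => by
    fin_cases k
    · exact ⟨0, by simp [hD]⟩
    · exact ⟨1, by simp [hD]⟩
  have hanti : Antitone P := by
    intro N M hNM x hx i
    refine Fin.cases ?_ (fun i => ?_) i
    · simpa [hP, hD] using hx 0
    refine Fin.cases ?_ (fun i => ?_) i
    · simpa [hP, hD] using hx (Fin.succ 0)
    · simpa [hP, hD] using hx (Fin.succ (Fin.succ (Fin.castLE hNM i)))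
  have hinter : ⋂ N, P N ⊆ lw a K L := by
    intro x hx
    have hcl : IsClosed {u | |x ⬝ᵥ u| ≤ F u} := by
      refine isClosed_le ?_ hFc
      exact (continuous_finsetSum _ fun i _ => continuous_const.mul (continuous_apply i)).abs
    have hsub : range e ⊆ {u | |x ⬝ᵥ u| ≤ F u} := by
      rintro _ ⟨k, rfl⟩
      have := mem_iInter.1 hx (k + 1) (Fin.succ (Fin.succ (Fin.last k)))
      simpa [hP, hD] using this
    have hall := hcl.closure_subset_iff.2 hsub
    rw [(TopologicalSpace.denseRange_denseSeq _).closure_range] at hall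
    exact fun u => (le_abs_self _).trans (hall (mem_univ u))
  set V := volume.real K ^ (1 - a) * volume.real L ^ a with hV
  have hstep : ∀ N, ENNReal.ofReal V ≤ volume (P N) := by
    intro N
    have hf : ∀ i, D N i ≠ 0 → 0 < F (D N i) := fun i hi => by
      have h1 := hK.sh_pos hKv hi
      have h3 := hL.sh_pos hLv hi
      positivity
    have hf0 : ∀ i, D N i = 0 → F (D N i) = 0 := fun i hi => by rw [hi, hF0]
    have hA := volume_pol_pos hf hf0 (h2 N)
    have hK1 := log_minkowski_pol hf hf0 (h2 N) (by omega) hK hKv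
    have hL1 := log_minkowski_pol hf hf0 (h2 N) (by omega) hL hLv
    have hzero : ∑ i, ((1 - a) * (volume.real (piece (D N) (fun i => F (D N i)) i)
          / volume.real (P N) * Real.log (sh K (D N i) / F (D N i)))
        + a * (volume.real (piece (D N) (fun i => F (D N i)) i)
          / volume.real (P N) * Real.log (sh L (D N i) / F (D N i)))) = 0 := by
      refine Finset.sum_eq_zero fun i _ => ?_
      by_cases hi : D N i = 0
      · simp [hi, hF0]
      have h1 := hK.sh_pos hKv hi
      have h3 := hL.sh_pos hLv hi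
      have hFp := hf i hi
      rw [Real.log_div h1.ne' hFp.ne', Real.log_div h3.ne' hFp.ne', show F (D N i)
        = sh K (D N i) ^ (1 - a) * sh L (D N i) ^ a from rfl, Real.log_mul (by positivity)
        (by positivity), Real.log_rpow h1, Real.log_rpow h3]
      ring
    rw [Finset.sum_add_distrib, ← Finset.mul_sum, ← Finset.mul_sum] at hzero
    have hKr : 0 < volume.real K := ENNReal.toReal_pos hKv hK.cpt.measure_lt_top.ne
    have hLr : 0 < volume.real L := ENNReal.toReal_pos hLv hL.cpt.measure_lt_top.ne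
    have hPv : 0 < volume.real (P N) := hA
    rw [Real.log_div hKr.ne' hPv.ne'] at hK1
    rw [Real.log_div hLr.ne' hPv.ne'] at hL1
    have hlog : Real.log V ≤ Real.log (volume.real (P N)) := by
      rw [hV, Real.log_mul (by positivity) (by positivity), Real.log_rpow hKr, Real.log_rpow hLr]
      nlinarith [mul_le_mul_of_nonneg_left hK1 hb.le, mul_le_mul_of_nonneg_left hL1 ha0.le]
    have hfin : volume (P N) ≠ ∞ := (isCompact_pol (h2 N)).measure_lt_top.ne
    rw [← ENNReal.ofReal_toReal hfin]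
    exact ENNReal.ofReal_le_ofReal ((Real.log_le_log_iff (by positivity) hPv).1 hlog)
  have hVeq : volume K ^ (1 - a) * volume L ^ a = ENNReal.ofReal V := by
    rw [hV, ENNReal.ofReal_mul (by positivity), ← ENNReal.ofReal_rpow_of_nonneg measureReal_nonneg hb.le,
      ← ENNReal.ofReal_rpow_of_nonneg measureReal_nonneg ha0.le, measureReal_def, measureReal_def,
      ENNReal.ofReal_toReal hK.cpt.measure_lt_top.ne, ENNReal.ofReal_toReal hL.cpt.measure_lt_top.ne]
  rw [hVeq]
  calc ENNReal.ofReal V ≤ ⨅ N, volume (P N) := le_iInf hstep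
    _ = volume (⋂ N, P N) := by
        rw [hanti.measure_iInter (fun N => isClosed_pol.measurableSet.nullMeasurableSet)
          ⟨0, (isCompact_pol (h2 0)).measure_lt_top.ne⟩]
    _ ≤ _ := measure_mono hinter

end Vale.Agent.P227.Sym
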